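import Vale.Agent.P102.H787.Local

open MeasureTheory Filter Topology

/-- (1) Rokhlin's problem: every invertible mixing probability preserving transformation is
mixing of order `k` for every `k`.
(2) Local theorem: for EVERY invertible probability preserving transformation, mixing or not,
pairwise mixing along a sequence of `k`-tuples of times implies `k`-fold mixing along it.
(3) Finitary form of (2). -/
theorem Vale.Agent.Results.P102.LocalRokhlin.result.{u} :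
    (∀ (Ω : Type u) [MeasurableSpace Ω] (μ : Measure Ω) [IsProbabilityMeasure μ] (T : Ω ≃ᵐ Ω),
      MeasurePreserving T μ μ →
      (∀ A B : Set Ω, MeasurableSet A → MeasurableSet B →
        Tendsto (fun n : ℤ => μ.real (A ∩ (T.toEquiv ^ n : Equiv.Perm Ω) ⁻¹' B)) cofinite
          (𝓝 (μ.real A * μ.real B))) →
      ∀ (k : ℕ) (A : Fin k → Set Ω), (∀ i, MeasurableSet (A i)) → ∀ ε : ℝ, 0 < ε →
        ∃ N : ℤ, ∀ t : Fin k → ℤ, (∀ i j, i < j → t i + N ≤ t j) →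
          |μ.real (⋂ i, (T.toEquiv ^ t i : Equiv.Perm Ω) ⁻¹' A i) - ∏ i, μ.real (A i)| < ε) ∧
    (∀ (Ω : Type u) [MeasurableSpace Ω] (μ : Measure Ω) [IsProbabilityMeasure μ] (T : Ω ≃ᵐ Ω),
      MeasurePreserving T μ μ → ∀ (k : ℕ) (t : ℕ → Fin k → ℤ),
      (∀ i j : Fin k, i ≠ j → ∀ A B : Set Ω, MeasurableSet A → MeasurableSet B →
        Tendsto (fun n : ℕ => μ.real ((T.toEquiv ^ t n i : Equiv.Perm Ω) ⁻¹' A ∩
          (T.toEquiv ^ t n j : Equiv.Perm Ω) ⁻¹' B)) atTop (𝓝 (μ.real A * μ.real B))) →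
      ∀ A : Fin k → Set Ω, (∀ i, MeasurableSet (A i)) →
        Tendsto (fun n : ℕ => μ.real (⋂ i, (T.toEquiv ^ t n i : Equiv.Perm Ω) ⁻¹' A i)) atTop
          (𝓝 (∏ i, μ.real (A i)))) ∧
    (∀ (Ω : Type u) [MeasurableSpace Ω] (μ : Measure Ω) [IsProbabilityMeasure μ] (T : Ω ≃ᵐ Ω),
      MeasurePreserving T μ μ → ∀ (k : ℕ) (A : Fin k → Set Ω), (∀ i, MeasurableSet (A i)) →
      ∀ ε : ℝ, 0 < ε → ∃ F : Finset (Set Ω), (∀ B ∈ F, MeasurableSet B) ∧ ∃ δ : ℝ, 0 < δ ∧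
        ∀ t : Fin k → ℤ,
          (∀ i j : Fin k, i ≠ j → ∀ B ∈ F, ∀ C ∈ F,
            |μ.real ((T.toEquiv ^ t i : Equiv.Perm Ω) ⁻¹' B ∩
              (T.toEquiv ^ t j : Equiv.Perm Ω) ⁻¹' C) - μ.real B * μ.real C| < δ) →
          |μ.real (⋂ i, (T.toEquiv ^ t i : Equiv.Perm Ω) ⁻¹' A i) - ∏ i, μ.real (A i)| < ε) := by
  refine ⟨?_, ?_, ?_⟩
  · intro Ω _ μ _ T hT h k
    have hL := Vale.Agent.P102.RM.b_line Vale.Agent.P102.RM.b_up
    exact Vale.Agent.P102.RM.rokhlin_of_main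
      (Vale.Agent.P102.RM.mainStd_of_three (Vale.Agent.P102.RM.H244.b_the_of hL)
        (Vale.Agent.P102.RM.H244.b_ideal_of hL) Vale.Agent.P102.RM.medThm) μ T hT h k
  · intro Ω _ μ _ T hT k t h A hA
    have h1 := Vale.Agent.P102.H787.local_rokhlin μ T hT (l := map t atTop)
      (fun i j hij B C hB hC => tendsto_map'_iff.2 (h i j hij B C hB hC)) A hA
    exact tendsto_map'_iff.1 h1
  · intro Ω _ μ _ T hT k A hA ε hε
    exact Vale.Agent.P102.H787.local_rokhlin_finitary μ T hT A hA ε hε
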