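import Vale.Agent.P102.RM.Assembly3
import Vale.Agent.P102.RM.BTot
import Vale.Agent.P102.RM.TheE244

open MeasureTheory Filter Topology Vale.Agent.P102

theorem Vale.Agent.Results.P102.Rokhlin.result.{u} :
    ∀ (Ω : Type u) [MeasurableSpace Ω] (μ : Measure Ω) [IsProbabilityMeasure μ] (T : Ω ≃ᵐ Ω),
      MeasurePreserving T μ μ →
      (∀ A B : Set Ω, MeasurableSet A → MeasurableSet B →
        Tendsto (fun n : ℤ => μ.real (A ∩ (T.toEquiv ^ n : Equiv.Perm Ω) ⁻¹' B)) cofinite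
          (𝓝 (μ.real A * μ.real B))) →
      ∀ k : ℕ, MixingOfOrder μ T.toEquiv k := by
  intro Ω _ μ _ T hT h k
  have hL := RM.b_line RM.b_up
  exact RM.rokhlin_of_main
    (RM.mainStd_of_three (RM.H244.b_the_of hL) (RM.H244.b_ideal_of hL) RM.medThm) μ T hT h k
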