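import Vale.Agent.P102.RM.Assembly3
import Vale.Agent.P102.RM.BTot
import Vale.Agent.P102.RM.TheE244
import Vale.Agent.P102.H696.Endo

open MeasureTheory Filter Topology Vale.Agent.P102 Vale.Agent.P102.H696
open scoped NNReal

/-- Mixing implies mixing of all orders, for automorphisms, endomorphisms, measurable semiflows and
measurable flows of an arbitrary probability space. -/
theorem Vale.Agent.Results.P102.RokhlinFlows.result.{u} :
    (∀ (Ω : Type u) [MeasurableSpace Ω] (μ : Measure Ω) [IsProbabilityMeasure μ] (T : Ω ≃ᵐ Ω),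
      MeasurePreserving T μ μ →
      (∀ A B : Set Ω, MeasurableSet A → MeasurableSet B →
        Tendsto (fun n : ℤ => μ.real (A ∩ (T.toEquiv ^ n : Equiv.Perm Ω) ⁻¹' B)) cofinite
          (𝓝 (μ.real A * μ.real B))) →
      AllOrders μ (fun n : ℤ => ((T.toEquiv ^ n : Equiv.Perm Ω) : Ω → Ω)) ∧
      Decorrelates μ (fun n : ℤ => ((T.toEquiv ^ n : Equiv.Perm Ω) : Ω → Ω))) ∧
    (∀ (Ω : Type u) [MeasurableSpace Ω] (μ : Measure Ω) [IsProbabilityMeasure μ] (T : Ω → Ω),
      MeasurePreserving T μ μ → MixingFamily μ (fun n : ℕ => T^[n]) →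
      AllOrders μ (fun n : ℕ => T^[n]) ∧ Decorrelates μ (fun n : ℕ => T^[n])) ∧
    (∀ (Ω : Type u) [MeasurableSpace Ω] (μ : Measure Ω) [IsProbabilityMeasure μ]
      (φ : ℝ≥0 → Ω → Ω), Measurable (Function.uncurry φ) → (∀ x, φ 0 x = x) →
      (∀ s t x, φ (s + t) x = φ s (φ t x)) → (∀ t, MeasurePreserving (φ t) μ μ) →
      MixingFamily μ φ → AllOrders μ φ ∧ Decorrelates μ φ) ∧
    (∀ (Ω : Type u) [MeasurableSpace Ω] (μ : Measure Ω) [IsProbabilityMeasure μ]
      (φ : ℝ → Ω → Ω), Measurable (Function.uncurry φ) → (∀ x, φ 0 x = x) →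
      (∀ s t x, φ (s + t) x = φ s (φ t x)) → (∀ t, MeasurePreserving (φ t) μ μ) →
      MixingFamily μ φ → AllOrders μ φ ∧ Decorrelates μ φ) := by
  have hL := RM.b_line RM.b_up
  have hM : RM.MainStd :=
    RM.mainStd_of_three (RM.H244.b_the_of hL) (RM.H244.b_ideal_of hL) RM.medThm
  have hQ : AutoStmt := fun Ω _ μ _ T hT h k => RM.rokhlin_of_main hM μ T hT h k
  have hE : ∀ (Ω : Type u) [MeasurableSpace Ω] (μ : Measure Ω) [IsProbabilityMeasure μ] (T : Ω → Ω),
      MeasurePreserving T μ μ → MixingFamily μ (fun n : ℕ => T^[n]) →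
      AllOrders μ (fun n : ℕ => T^[n]) := fun Ω _ μ _ T hT h => endo_mixing hQ hT h
  have hS : ∀ (Ω : Type u) [MeasurableSpace Ω] (μ : Measure Ω) [IsProbabilityMeasure μ]
      (φ : ℝ≥0 → Ω → Ω), Measurable (Function.uncurry φ) → (∀ x, φ 0 x = x) →
      (∀ s t x, φ (s + t) x = φ s (φ t x)) → (∀ t, MeasurePreserving (φ t) μ μ) →
      MixingFamily μ φ → AllOrders μ φ := by
    intro Ω _ μ _ φ hm h0 hadd hmp hmix
    refine semiflow_mixing hm h0 hadd hmp (hE Ω μ (φ 1) (hmp 1) fun A B hA hB => ?_)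
    have h1 := (hmix A B hA hB).comp (tendsto_natCast_atTop_atTop (R := ℝ≥0))
    refine h1.congr fun n => ?_
    simp only [Function.comp_apply]
    congr 2
    ext x
    rw [Set.mem_preimage, Set.mem_preimage, semiflow_nat h0 hadd]
  refine ⟨fun Ω _ μ _ T hT h => ?_, fun Ω _ μ _ T hT h => ?_,
    fun Ω _ μ _ φ hm h0 hadd hmp hmix => ?_, fun Ω _ μ _ φ hm h0 hadd hmp hmix => ?_⟩
  · have h1 : AllOrders μ (fun n : ℤ => ((T.toEquiv ^ n : Equiv.Perm Ω) : Ω → Ω)) :=
      fun k A hA ε hε => RM.rokhlin_of_main hM μ T hT h k A hA ε hε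
    exact ⟨h1, fun_mixing (fun n => RM.measurable_it T n) h1⟩
  · have h1 := hE Ω μ T hT h
    exact ⟨h1, fun_mixing (fun n => hT.measurable.iterate n) h1⟩
  · have h1 := hS Ω μ φ hm h0 hadd hmp hmix
    exact ⟨h1, fun_mixing (fun t => (hmp t).measurable) h1⟩
  · have h2 : AllOrders μ (fun s : ℝ≥0 => φ s) := by
      refine hS Ω μ (fun s : ℝ≥0 => φ s) ?_ ?_ ?_ ?_ ?_
      · exact hm.comp (measurable_fst.coe_nnreal_real.prodMk measurable_snd)
      · intro x
        exact h0 x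
      · intro s t x
        exact (congrArg (fun r => φ r x) (NNReal.coe_add s t)).trans (hadd s t x)
      · exact fun t => hmp t
      · intro A B hA hB
        have h3 : Tendsto (fun s : ℝ≥0 => (s : ℝ)) atTop atTop :=
          NNReal.tendsto_coe_atTop.2 tendsto_id
        exact (hmix A B hA hB).comp h3
    have h1 := flow_mixing hadd hmp h2
    exact ⟨h1, fun_mixing (fun t => (hmp t).measurable) h1⟩
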